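import Vale.Agent.P284.H409.K.Spec
import Vale.Agent.P284.H35.K1a
import Vale.Agent.P284.H35.MaxP
import Vale.Agent.P284.H622.G9
import Vale.Agent.P284.H622.G8
import Vale.Agent.P284.H427.G7
import Vale.Agent.P284.H427.G10
import Vale.Agent.P284.H427.G11

/-! # P284, theorem K, row KG9 (helper977): quotients of the fundamental group.
The Galois covering of a quotient of `π₁` is the orbit space of a normal subgroup on the universal
covering. -/

open scoped Manifold ContDiff Topology Pointwise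
open Filter Set Metric

noncomputable section

namespace Vale.Agent.P284.H977.K

open Vale.Agent.P272.K Vale.Agent.P284.H248 Vale.Agent.P284.H894 Vale.Agent.P284.H894.G
  Vale.Agent.P284.H35.K Vale.Agent.P284.H622 Vale.Agent.P284.H409.K

/-! ### The orbit space of a normal subgroup -/

section Quo
variable {X : Type} [TopologicalSpace X]
  {E Γ : Type} [TopologicalSpace E] [Group Γ] [MulAction Γ E] {p : E → X} {N : Subgroup Γ}

omit [TopologicalSpace E] in
theorem act_aux [hN : N.Normal] (a₁ a₂ : Γ) (h : QuotientGroup.leftRel N a₁ a₂) (b₁ b₂ : E)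
    (h' : MulAction.orbitRel N E b₁ b₂) :
    MulAction.orbitRel N E (a₁ • b₁) (a₂ • b₂) := by
  rw [QuotientGroup.leftRel_apply] at h
  obtain ⟨m, hm⟩ := h'
  have hm' : (m : Γ) • b₂ = b₁ := hm
  have h1 : a₁ * a₂⁻¹ ∈ N := by
    have h2 := hN.conj_mem _ (N.inv_mem h) a₁
    have h3 : a₁ * (a₁⁻¹ * a₂)⁻¹ * a₁⁻¹ = a₁ * a₂⁻¹ := by group
    rwa [h3] at h2
  have h2 : a₁ * m * a₁⁻¹ ∈ N := hN.conj_mem _ m.2 a₁
  refine ⟨⟨a₁ * m * a₁⁻¹ * (a₁ * a₂⁻¹), N.mul_mem h2 h1⟩, ?_⟩
  show (a₁ * m * a₁⁻¹ * (a₁ * a₂⁻¹)) • a₂ • b₂ = a₁ • b₁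
  rw [← hm', ← mul_smul, ← mul_smul]
  congr 1
  group

/-- the action of `Γ ⧸ N` on the orbit space -/
@[reducible] def actQ (E : Type) {Γ : Type} [Group Γ] [MulAction Γ E] (N : Subgroup Γ) [N.Normal] :
    MulAction (Γ ⧸ N) (Qt E N) where
  smul := Quotient.map₂ (fun (g : Γ) (y : E) => g • y) fun a₁ a₂ h b₁ b₂ h' => act_aux a₁ a₂ h b₁ b₂ h'
  one_smul := by
    intro y
    obtain ⟨y, rfl⟩ := mkQ_surj y
    show mkQ N ((1 : Γ) • y) = mkQ N y
    rw [one_smul]
  mul_smul := by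
    intro g h y
    obtain ⟨g, rfl⟩ := QuotientGroup.mk'_surjective N g
    obtain ⟨h, rfl⟩ := QuotientGroup.mk'_surjective N h
    obtain ⟨y, rfl⟩ := mkQ_surj y
    show mkQ N ((g * h) • y) = mkQ N (g • h • y)
    rw [mul_smul]

/-- the orbit space is a Galois covering with group `Γ ⧸ N` -/
theorem galQ (hG : IsGalois Γ p) [N.Normal] :
    letI := actQ E N
    IsGalois (Γ ⧸ N) (prQ hG N) := by
  let _ := actQ E N
  have hsm : ∀ (g : Γ) (y : E), (QuotientGroup.mk' N g) • mkQ N y = mkQ N (g • y) := fun _ _ => rfl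
  have hcont : ∀ g : Γ ⧸ N, Continuous fun y : Qt E N => g • y := by
    intro g
    obtain ⟨g, rfl⟩ := QuotientGroup.mk'_surjective N g
    have hq : Topology.IsQuotientMap (mkQ N : E → Qt E N) := isQuotientMap_quotient_mk'
    rw [hq.continuous_iff]
    exact mkQ_cont.comp (hG.cont g)
  have hsurj : Function.Surjective (prQ hG N) := by
    intro x
    obtain ⟨y, hy⟩ := hG.surj x
    exact ⟨mkQ N y, hy⟩
  have hfree : ∀ (g : Γ ⧸ N) (y : Qt E N), g • y = y → g = 1 := by
    intro g y h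
    obtain ⟨g, rfl⟩ := QuotientGroup.mk'_surjective N g
    obtain ⟨y, rfl⟩ := mkQ_surj y
    rw [hsm] at h
    obtain ⟨m, hm, h2⟩ := mkQ_eq.1 h
    have h3 : (g⁻¹ * m) • y = y := by rw [mul_smul, h2, inv_smul_smul]
    have h4 : g = m := inv_mul_eq_one.1 (hG.free _ _ h3)
    rw [h4]
    exact (QuotientGroup.eq_one_iff m).2 hm
  have horb : ∀ y y' : Qt E N, prQ hG N y = prQ hG N y' ↔ ∃ g : Γ ⧸ N, g • y = y' := by
    intro y y'
    obtain ⟨y, rfl⟩ := mkQ_surj y
    obtain ⟨y', rfl⟩ := mkQ_surj y'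
    rw [prQ_mkQ, prQ_mkQ, hG.orb]
    constructor
    · rintro ⟨g, rfl⟩
      exact ⟨QuotientGroup.mk' N g, rfl⟩
    · rintro ⟨g, h⟩
      obtain ⟨g, rfl⟩ := QuotientGroup.mk'_surjective N g
      rw [hsm] at h
      obtain ⟨m, -, h2⟩ := mkQ_eq.1 h.symm
      exact ⟨m * g, by rw [mul_smul, h2]⟩
  have hQC : IsQuotientCoveringMap (prQ hG N) (Γ ⧸ N) :=
    { toIsQuotientMap := (prQ_loc hG).isOpenMap.isQuotientMap (prQ_cont hG) hsurj
      toContinuousConstSMul := ⟨hcont⟩
      apply_eq_iff_mem_orbit := by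
        intro e₁ e₂
        rw [MulAction.mem_orbit_iff, eq_comm]
        exact horb e₂ e₁
      disjoint := by
        intro e
        obtain ⟨U, hU, he, hinj⟩ := (prQ_loc (N := N) hG).isLocallyInjective e
        refine ⟨U, hU.mem_nhds he, ?_⟩
        rintro g ⟨_, ⟨u, hu, rfl⟩, hgu⟩
        refine hfree g u (hinj hgu hu ?_)
        exact ((horb u (g • u)).2 ⟨g, rfl⟩).symm }
  exact ⟨hQC.isCoveringMap, hsurj, hcont, hfree, horb⟩

end Quo

/-! ### Groups -/

theorem rf_of_equiv {A B : Type} [Group A] [Group B] (e : A ≃* B) [Group.ResiduallyFinite B] :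
    Group.ResiduallyFinite A := by
  rw [Group.residuallyFinite_iff_forall_finiteIndexNormalSubgroup]
  intro g hg
  have h1 : e g = 1 := Group.eq_one_iff_forall_finiteIndexNormalSubroup (e g)
    fun K => hg (K.comap e.toMonoidHom)
  exact (map_eq_one_iff e e.injective).1 h1

theorem countable_of_fg {A : Type} [Group A] (h : Group.FG A) : Countable A := by
  obtain ⟨α, hα, f, hf⟩ := Group.fg_iff_exists_freeGroup_hom_surjective_finite.1 h
  have : Countable (FreeGroup α) := by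
    have hq : Function.Surjective (FreeGroup.mk : List (α × Bool) → FreeGroup α) := by
      rintro ⟨L⟩
      exact ⟨L, rfl⟩
    exact hq.countable
  exact hf.countable

/-- **KG9** -/
theorem kg9Stmt : KG9Stmt := by
  intro h6 n X iT iT2 iC iCn iCh iM w hw U x Q hUo hx hU hQ hQU R gR rfR q hq
  obtain ⟨M, hM⟩ := Vale.Agent.P300.H673.exists_openEmbedding (Cm n) X
  obtain ⟨Y, Γ, tY, gΓ, aΓ, π, hsc, ht2, hcont, hfree, hcov, hsurj, horb⟩ :=
    Vale.Agent.P223.X.U.main M X hM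
  have hcont' : ∀ γ : Γ, Continuous fun y : Y => γ • y := hcont
  have qc := Vale.Agent.P223.R2.H968.Lift.quot π hcont hfree hcov hsurj horb
  obtain ⟨y0, rfl⟩ := hsurj x
  have e : FundamentalGroup X (π y0) ≃* Γᵐᵒᵖ :=
    qc.fundamentalGroupEquiv (⟨y0, rfl⟩ : π ⁻¹' {π y0})
  have hG : IsGalois Γ (π : Y → X) := ⟨hcov, hsurj, hcont', hfree, horb⟩
  -- the covering of the quotient
  let f : Γ →* R := q.comp ((MulEquiv.inv' Γ).trans e.symm).toMonoidHom
  have hf : Function.Surjective f :=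
    hq.comp ((MulEquiv.inv' Γ).trans e.symm).surjective
  let N : Subgroup Γ := f.ker
  let _ := actQ Y N
  have hGN : IsGalois (Γ ⧸ N) (prQ hG N) := galQ hG
  have ef : Γ ⧸ N ≃* R := QuotientGroup.quotientKerEquivOfSurjective f hf
  have : Group.ResiduallyFinite (Γ ⧸ N) := rf_of_equiv ef
  have hpcY : PathConnectedSpace Y := inferInstance
  have hpc : PathConnectedSpace (Qt Y N) :=
    (mkQ_surj (N := N) (E := Y)).pathConnectedSpace mkQ_cont
  have : ConnectedSpace (Qt Y N) := inferInstance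
  have hΓ : Countable (Γ ⧸ N) := by
    obtain ⟨C, -⟩ := H35.A9.exists_shsK n X w hw (Qt Y N) (Γ ⧸ N) (prQ hG N) hGN
    exact countable_of_fg (H35.W.coc_fg C)
  intro S0 hS0
  refine subexp_of_image ef.symm.toMonoidHom ef.symm.injective ?_
  have hS : (ef.symm.toMonoidHom '' S0).Finite := hS0.image _
  set S := ef.symm.toMonoidHom '' S0 with hSdef
  by_contra hexp
  set y1 : Qt Y N := mkQ N y0 with hy1
  have hp1 : prQ hG N y1 = π y0 := rfl
  -- the component
  have hlc : LocallyConnectedSpace (Qt Y N) :=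
    locallyConnected (n := n) hGN.cov.isLocalHomeomorph
  have hVo : IsOpen (connectedComponentIn (prQ hG N ⁻¹' U) y1) :=
    (hUo.preimage hGN.cov.continuous).connectedComponentIn
  have hVp : IsPreconnected (connectedComponentIn (prQ hG N ⁻¹' U) y1) :=
    isPreconnected_connectedComponentIn
  have hV0 : ∀ t : Γ ⧸ N, t • y1 ∈ connectedComponentIn (prQ hG N ⁻¹' U) y1 := fun t =>
    mem_comp hGN.cov ((hGN.orb _ _).2 ⟨t, rfl⟩).symm hU
  have hW : (⋂ t ∈ S, (fun y : Qt Y N => t • y) ⁻¹' connectedComponentIn (prQ hG N ⁻¹' U) y1) ∈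
      𝓝 y1 := by
    rw [biInter_mem hS]
    exact fun t _ => (hGN.cont t).continuousAt.preimage_mem_nhds (hVo.mem_nhds (hV0 t))
  obtain ⟨t, ht, u, hu, hu01, y', hy', hlt⟩ :=
    h6 n X w hw (Qt Y N) (Γ ⧸ N) (prQ hG N) hGN S hS hexp y1 _ hW
  have hy'V : t • y' ∈ connectedComponentIn (prQ hG N ⁻¹' U) y1 := by
    have := mem_iInter₂.1 hy' t ht
    exact this
  have hb : ∃ B : ℝ, ∀ y, |u y| ≤ B :=
    ⟨1, fun y => abs_le.2 ⟨by linarith [(hu01 y).1], (hu01 y).2⟩⟩
  have hcount : (u '' connectedComponentIn (prQ hG N ⁻¹' U) y1).Countable := by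
    have hfib : (prQ hG N ⁻¹' Q).Countable := by
      rw [← biUnion_of_singleton Q, preimage_iUnion₂]
      refine hQ.biUnion fun q _ => ?_
      rcases (prQ hG N ⁻¹' {q}).eq_empty_or_nonempty with h | ⟨z, hz⟩
      · rw [h]; exact countable_empty
      · refine (countable_range fun γ : Γ ⧸ N => γ • z).mono fun z' hz' => ?_
        have h7 : prQ hG N z = prQ hG N z' :=
          (mem_singleton_iff.1 hz).trans (mem_singleton_iff.1 hz').symm
        obtain ⟨γ, hγ⟩ := (hGN.orb _ _).1 h7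
        exact ⟨γ, hγ⟩
    refine (hfib.image u).mono ?_
    rintro _ ⟨y, hy, rfl⟩
    have hyU : prQ hG N y ∈ U := by
      have := connectedComponentIn_subset (prQ hG N ⁻¹' U) y1 hy
      exact this
    obtain ⟨q, hq, hch⟩ := hQU _ hyU
    obtain ⟨z, hz, huz⟩ := H622.g8Stmt H427.g7Stmt n X (Qt Y N) (prQ hG N) hGN.cov hGN.surj y q hch
    exact ⟨z, by show prQ hG N z ∈ Q; rw [hz]; exact hq, huz u hu hb⟩
  have h9 := H427.g11Stmt H427.g10Stmt n X (Qt Y N) (prQ hG N) hGN.cov u hu hb _ hVo hVp hcount y1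
    (by simpa using hV0 1) _ hy'V
  linarith

end Vale.Agent.P284.H977.K
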