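import Vale.Agent.P284.H409.K.Spec
import Vale.Agent.P272.Sz.Det
import Vale.Agent.P272.K.AMP.H470.Loc
import Vale.Agent.P272.K.INT.Local
import Mathlib.Analysis.SpecialFunctions.SmoothTransition

/-! # P284, theorem K, row K4 (helper977): the Chern-Levine-Nirenberg inequality for smooth functions,
by comparison with `L (|z - a|² - s²)`. -/

open scoped Manifold ContDiff Topology Pointwise ComplexConjugate ComplexOrder Matrix
open Filter Set Metric MeasureTheory

noncomputable section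

namespace Vale.Agent.P284.H977.K

open Vale.Agent.P272.K Vale.Agent.P284.H894.V Vale.Agent.P284.H409.K

/-! ### The convex function -/

/-- a smooth convex function which vanishes for `x ≤ 0` -/
def hh0 (x : ℝ) : ℝ := x * expNegInvGlue x

/-- its derivative -/
def hh1 (x : ℝ) : ℝ := (1 + x⁻¹) * expNegInvGlue x

/-- its second derivative -/
def hh2 (x : ℝ) : ℝ := (x⁻¹) ^ 3 * expNegInvGlue x

theorem hh0_smooth : ContDiff ℝ ∞ hh0 := contDiff_id.mul expNegInvGlue.contDiff

theorem hh0_zero {x : ℝ} (hx : x ≤ 0) : hh0 x = 0 := by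
  simp [hh0, expNegInvGlue.zero_of_nonpos hx]

theorem hh0_deriv (x : ℝ) : HasDerivAt hh0 (hh1 x) x := by
  have h1 := expNegInvGlue.hasDerivAt_polynomial_eval_inv_mul (1 : Polynomial ℝ) x
  simp only [Polynomial.eval_one, one_mul, Polynomial.derivative_one, sub_zero, mul_one,
    Polynomial.eval_pow, Polynomial.eval_X] at h1
  have h2 := (hasDerivAt_id x).mul h1
  refine h2.congr_deriv ?_
  simp only [id, hh1]
  rcases eq_or_ne x 0 with rfl | hx
  · simp
  · field_simp

theorem hh1_deriv (x : ℝ) : HasDerivAt hh1 (hh2 x) x := by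
  have h1 := expNegInvGlue.hasDerivAt_polynomial_eval_inv_mul (1 + Polynomial.X : Polynomial ℝ) x
  simp only [Polynomial.eval_add, Polynomial.eval_one, Polynomial.eval_X, Polynomial.derivative_add,
    Polynomial.derivative_one, Polynomial.derivative_X, zero_add, Polynomial.eval_mul,
    Polynomial.eval_pow, Polynomial.eval_sub] at h1
  refine h1.congr_deriv ?_
  simp only [hh2]
  ring

theorem hh1_nonneg (x : ℝ) : 0 ≤ hh1 x := by
  rcases le_or_gt x 0 with hx | hx
  · simp [hh1, expNegInvGlue.zero_of_nonpos hx]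
  · exact mul_nonneg (by positivity) (expNegInvGlue.nonneg x)

theorem hh2_nonneg (x : ℝ) : 0 ≤ hh2 x := by
  rcases le_or_gt x 0 with hx | hx
  · simp [hh2, expNegInvGlue.zero_of_nonpos hx]
  · exact mul_nonneg (by positivity) (expNegInvGlue.nonneg x)

theorem glue_pos {x : ℝ} (hx : 0 < x) : expNegInvGlue x = Real.exp (-x⁻¹) := by
  simp [expNegInvGlue, not_le.2 hx]

theorem hh1_le (x : ℝ) : hh1 x ≤ 1 := by
  rcases le_or_gt x 0 with hx | hx
  · simp [hh1, expNegInvGlue.zero_of_nonpos hx]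
  · rw [hh1, glue_pos hx]
    calc (1 + x⁻¹) * Real.exp (-x⁻¹) ≤ Real.exp x⁻¹ * Real.exp (-x⁻¹) := by
          refine mul_le_mul_of_nonneg_right ?_ (Real.exp_pos _).le
          linarith [Real.add_one_le_exp x⁻¹]
      _ = 1 := by rw [← Real.exp_add]; simp

theorem hh1_low {x : ℝ} (hx : 1 ≤ x) : Real.exp (-1) ≤ hh1 x := by
  have hx0 : 0 < x := lt_of_lt_of_le one_pos hx
  rw [hh1, glue_pos hx0]
  have h1 : x⁻¹ ≤ 1 := inv_le_one_of_one_le₀ hx
  have h2 : 0 < x⁻¹ := inv_pos.2 hx0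
  have h3 : Real.exp (-1) ≤ Real.exp (-x⁻¹) := Real.exp_le_exp.2 (by linarith)
  have h4 := Real.exp_pos (-x⁻¹)
  nlinarith

/-! ### Matrices -/

section Mat
variable {n : ℕ}

theorem det_re_le {A B : Matrix (Fin n) (Fin n) ℂ} (hA : A.PosDef) (hAB : (B - A).PosSemidef) :
    A.det.re ≤ B.det.re :=
  (Complex.le_def.1 (Vale.Agent.P272.Sz.det_le_det hA hAB)).1

theorem det_smul_re (t : ℝ) (A : Matrix (Fin n) (Fin n) ℂ) :
    ((t : ℂ) • A).det.re = t ^ n * A.det.re := by
  rw [Matrix.det_smul, Fintype.card_fin, ← Complex.ofReal_pow, Complex.re_ofReal_mul]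

theorem smul_psd {t : ℝ} (ht : 0 ≤ t) {A : Matrix (Fin n) (Fin n) ℂ} (hA : A.PosSemidef) :
    ((t : ℂ) • A).PosSemidef := hA.smul (by exact_mod_cast ht)

theorem smul_pd {t : ℝ} (ht : 0 < t) {A : Matrix (Fin n) (Fin n) ℂ} (hA : A.PosDef) :
    ((t : ℂ) • A).PosDef := hA.smul (by exact_mod_cast ht)

end Mat

/-! ### The Hessian of the comparison function -/

section Loc
variable {n : ℕ}

open Vale.Agent.P272.K.AMP in
/-- `φ - 1 - L (|z - a|² - s²)` -/
def ff (φ : Cm n → ℝ) (a : Cm n) (L s : ℝ) (y : Cm n) : ℝ := φ y - 1 - L * (sq a y - s ^ 2)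

theorem ff_smooth {φ : Cm n → ℝ} {z : Cm n} {k : ℕ∞} (hφ : ContDiffAt ℝ k φ z) (a : Cm n) (L s : ℝ) :
    ContDiffAt ℝ k (ff φ a L s) z := by
  have h1 : ContDiffAt ℝ k (AMP.sq a) z :=
    (AMP.contDiff_sq a).contDiffAt.of_le (by exact_mod_cast le_top)
  exact (hφ.sub contDiffAt_const).sub (contDiffAt_const.mul (h1.sub contDiffAt_const))

theorem ff_hess {φ : Cm n → ℝ} {z : Cm n} (hφ : ContDiffAt ℝ 2 φ z) (a : Cm n) (L s : ℝ) :
    cHess (ff φ a L s) z = cHess φ z - (L : ℂ) • 1 := by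
  have h1 : ContDiffAt ℝ 2 (AMP.sq a) z :=
    (AMP.contDiff_sq a).contDiffAt.of_le (by norm_cast)
  have e : ff φ a L s = fun y => (φ y + (-1 + L * s ^ 2)) + (-L) * AMP.sq a y := by
    funext y; simp only [ff]; ring
  rw [e, C2.cHess_add (hφ.add contDiffAt_const) (contDiffAt_const.mul h1),
    C2.cHess_add hφ contDiffAt_const, C2.cHess_const, C2.cHess_const_mul _ h1, AMP.cHess_sq]
  simp [sub_eq_add_neg]

/-- the gradient -/
def DD (f : Cm n → ℝ) (z : Cm n) (j : Fin n) : ℂ := dz j (fun y => (f y : ℂ)) z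

theorem hess_dec {φ : Cm n → ℝ} {z : Cm n} (hφ : ContDiffAt ℝ 2 φ z) (a : Cm n) (L s : ℝ)
    (W : Matrix (Fin n) (Fin n) ℂ) :
    W + (L : ℂ) • 1 + cHess (fun y => hh0 (ff φ a L s y)) z =
      ((1 - hh1 (ff φ a L s z) : ℝ) : ℂ) • (W + (L : ℂ) • 1) +
        ((hh1 (ff φ a L s z) : ℝ) : ℂ) • (W + cHess φ z) +
        ((hh2 (ff φ a L s z) : ℝ) : ℂ) •
          Matrix.vecMulVec (DD (ff φ a L s) z) (star (DD (ff φ a L s) z)) := by
  have hf : ContDiffAt ℝ 2 (ff φ a L s) z := ff_smooth (k := 2) hφ a L s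
  ext j k
  have h1 := C2.cHess_comp (ψ := hh0) (ψ₁ := hh1) (ψ₂ := hh2 (ff φ a L s z))
    (Eventually.of_forall hh0_deriv) (hh1_deriv _) hf j k
  simp only [Matrix.add_apply, Matrix.smul_apply, smul_eq_mul, Matrix.vecMulVec_apply, Pi.star_apply]
  rw [h1, ff_hess hφ, C2.dzb_real k (hf.differentiableAt (by norm_num))]
  simp only [Matrix.sub_apply, Matrix.smul_apply, smul_eq_mul, DD, RCLike.star_def]
  push_cast
  ring

theorem dec_psd {φ : Cm n → ℝ} {z : Cm n} (hφ : ContDiffAt ℝ 2 φ z) (a : Cm n) {L : ℝ} (hL : 0 ≤ L)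
    (s : ℝ) {W : Matrix (Fin n) (Fin n) ℂ} (hW : W.PosDef) (hWφ : (W + cHess φ z).PosDef) {t : ℝ}
    (ht : t ≤ hh1 (ff φ a L s z)) :
    (W + (L : ℂ) • 1 + cHess (fun y => hh0 (ff φ a L s y)) z -
      (t : ℂ) • (W + cHess φ z)).PosSemidef := by
  have h1 : (W + (L : ℂ) • 1).PosSemidef :=
    hW.posSemidef.add (smul_psd hL Matrix.PosSemidef.one)
  have e : W + (L : ℂ) • 1 + cHess (fun y => hh0 (ff φ a L s y)) z - (t : ℂ) • (W + cHess φ z) =
      ((1 - hh1 (ff φ a L s z) : ℝ) : ℂ) • (W + (L : ℂ) • 1) +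
        ((hh1 (ff φ a L s z) - t : ℝ) : ℂ) • (W + cHess φ z) +
        ((hh2 (ff φ a L s z) : ℝ) : ℂ) •
          Matrix.vecMulVec (DD (ff φ a L s) z) (star (DD (ff φ a L s) z)) := by
    rw [hess_dec hφ, Complex.ofReal_sub (hh1 _) t, sub_smul ((hh1 _ : ℝ) : ℂ)]
    abel
  rw [e]
  exact ((smul_psd (by linarith [hh1_le (ff φ a L s z)]) h1).add
    (smul_psd (by linarith) hWφ.posSemidef)).add
    (smul_psd (hh2_nonneg _) (Matrix.posSemidef_vecMulVec_self_star _))

/-- continuity of the determinant -/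
theorem det_cont {U : Set (Cm n)} {b : Cm n → Matrix (Fin n) (Fin n) ℂ} {u : Cm n → ℝ}
    (hb : ∀ z ∈ U, ∀ i j, ContDiffAt ℝ ∞ (fun y => b y i j) z)
    (hu : ∀ z ∈ U, ContDiffAt ℝ ∞ u z) :
    ContinuousOn (fun z => (b z + cHess u z).det.re) U := by
  intro z hz
  refine ContinuousAt.continuousWithinAt ?_
  refine Complex.continuous_re.continuousAt.comp
    (INT.contDiffAt_det (k := ∞) fun i j => ?_).continuousAt
  exact (hb z hz i j).add (INT.smooth_cHess (hu z hz) i j)

theorem sq_cont (a : Cm n) : Continuous (AMP.sq a) := (AMP.contDiff_sq a).continuous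

theorem sq_sub {a z : Cm n} {s : ℝ} (hs : 0 ≤ s) (h : AMP.sq a z ≤ s ^ 2) : z ∈ closedBall a s := by
  rw [mem_closedBall, dist_eq_norm, pi_norm_le_iff_of_nonneg hs]
  intro i
  have h1 : Complex.normSq (z i - a i) ≤ AMP.sq a z :=
    Finset.single_le_sum (f := fun i => Complex.normSq (z i - a i))
      (fun _ _ => Complex.normSq_nonneg _) (Finset.mem_univ i)
  rw [Complex.normSq_eq_norm_sq] at h1
  have h2 : ‖(z - a) i‖ ^ 2 ≤ s ^ 2 := by
    rw [Pi.sub_apply]; linarith
  exact le_of_sq_le_sq h2 hs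

theorem sq_compact (a : Cm n) {s t : ℝ} (hs : 0 ≤ s) (ht : t ≤ s ^ 2) :
    IsCompact {z : Cm n | AMP.sq a z ≤ t} :=
  (isCompact_closedBall a s).of_isClosed_subset (isClosed_le (sq_cont a) continuous_const)
    fun _ hz => sq_sub hs (le_trans hz ht)

/-- the local estimate -/
theorem loc {U : Set (Cm n)} {w : Cm n → Matrix (Fin n) (Fin n) ℂ} (hw : KU U w) {a : Cm n} {s : ℝ}
    (hs : 0 < s) (hU : {z : Cm n | AMP.sq a z ≤ s ^ 2} ⊆ U) :
    ∃ B : ℝ, 0 ≤ B ∧ ∀ A : ℝ, 1 ≤ A → ∀ φ : Cm n → ℝ,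
      (∀ z ∈ U, ContDiffAt ℝ ∞ φ z) → (∀ z ∈ U, -A ≤ φ z ∧ φ z ≤ 0) →
      (∀ z ∈ U, (w z + cHess φ z).PosDef) →
      ∫ z in {z : Cm n | AMP.sq a z < s ^ 2 / 2}, (w z + cHess φ z).det.re ≤ B * A ^ n := by
  set G : Set (Cm n) := {z | AMP.sq a z ≤ s ^ 2} with hG
  set V : Set (Cm n) := {z | AMP.sq a z < s ^ 2} with hV
  set V' : Set (Cm n) := {z | AMP.sq a z < s ^ 2 / 2} with hV'
  have hs2 : 0 < s ^ 2 := by positivity
  have hGc : IsCompact G := sq_compact a hs.le le_rfl
  have hVo : IsOpen V := isOpen_lt (sq_cont a) continuous_const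
  have hV'o : IsOpen V' := isOpen_lt (sq_cont a) continuous_const
  have hVG : V ⊆ G := fun z hz => by
    have h : AMP.sq a z < s ^ 2 := hz
    exact h.le
  have hV'V : V' ⊆ V := fun z hz => by
    have : AMP.sq a z < s ^ 2 / 2 := hz
    show AMP.sq a z < s ^ 2
    linarith
  have hVU : V ⊆ U := hVG.trans hU
  set D : ℝ := ∫ z in V, (w z + 1).det.re with hD
  have hw1 : ∀ z ∈ U, (w z + 1).PosDef := fun z hz => (hw.pos z hz).add Matrix.PosDef.one
  have hD0 : 0 ≤ D := setIntegral_nonneg hVo.measurableSet fun z hz =>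
    (Complex.lt_def.1 (hw1 z (hVU hz)).det_pos).1.le
  have hDi : IntegrableOn (fun z => (w z + 1).det.re) V := by
    have h1 : ContinuousOn (fun z => (w z + 1).det.re) U := by
      intro z hz
      refine ContinuousAt.continuousWithinAt ?_
      refine Complex.continuous_re.continuousAt.comp
        (INT.contDiffAt_det (k := ∞) fun i j => ?_).continuousAt
      exact (hw.smooth z hz i j).add contDiffAt_const
    exact ((h1.mono hU).integrableOn_compact hGc).mono_set hVG
  refine ⟨(Real.exp (-1))⁻¹ ^ n * ((1 + 6 / s ^ 2) ^ n * D), by positivity, ?_⟩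
  intro A hA φ hφ hbd hpos
  set L : ℝ := 6 * A / s ^ 2 with hL
  have hL0 : 0 < L := by positivity
  have hLs : L * s ^ 2 = 6 * A := by rw [hL]; field_simp
  set f : Cm n → ℝ := ff φ a L s with hf
  set b : Cm n → Matrix (Fin n) (Fin n) ℂ := fun z => w z + (L : ℂ) • 1 with hb
  set u : Cm n → ℝ := V.indicator fun z => hh0 (f z) with hu
  set G' : Set (Cm n) := {z | AMP.sq a z ≤ s ^ 2 - 1 / L} with hG'
  have hG'c : IsCompact G' := sq_compact a hs.le (by
    have : 0 < 1 / L := by positivity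
    linarith)
  have hG'V : G' ⊆ V := fun z hz => by
    have h1 : AMP.sq a z ≤ s ^ 2 - 1 / L := hz
    have : 0 < 1 / L := by positivity
    show AMP.sq a z < s ^ 2
    linarith
  have hu0 : ∀ z, z ∉ G' → u z = 0 := by
    intro z hz
    rw [hu, indicator_apply]
    split_ifs with hzV
    · refine hh0_zero ?_
      have h1 : s ^ 2 - 1 / L < AMP.sq a z := not_le.1 hz
      have h2 := (hbd z (hVU hzV)).2
      have h3 : L * (s ^ 2 - AMP.sq a z) < 1 := by
        have h4 : s ^ 2 - AMP.sq a z < 1 / L := by linarith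
        calc L * (s ^ 2 - AMP.sq a z) < L * (1 / L) := by nlinarith
          _ = 1 := by field_simp
      simp only [hf, ff]
      nlinarith
    · rfl
  have huV : ∀ z ∈ V, u =ᶠ[𝓝 z] fun y => hh0 (f y) := by
    intro z hz
    filter_upwards [hVo.mem_nhds hz] with y hy
    rw [hu, indicator_of_mem hy]
  have hfs : ∀ z ∈ U, ContDiffAt ℝ ∞ (fun y => hh0 (f y)) z := fun z hz =>
    hh0_smooth.contDiffAt.comp z (ff_smooth (k := ⊤) (hφ z hz) a L s)
  have husm : ContDiff ℝ ∞ u := by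
    rw [contDiff_iff_contDiffAt]
    intro z
    by_cases hz : z ∈ G'
    · exact (hfs z (hVU (hG'V hz))).congr_of_eventuallyEq (huV z (hG'V hz))
    · refine contDiffAt_const (c := (0 : ℝ)) |>.congr_of_eventuallyEq ?_
      filter_upwards [hG'c.isClosed.isOpen_compl.mem_nhds hz] with y hy
      exact hu0 y hy
  have hucs : HasCompactSupport u := HasCompactSupport.intro hG'c hu0
  have huts : tsupport u ⊆ V := by
    refine (closure_minimal ?_ hG'c.isClosed).trans hG'V
    intro z hz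
    by_contra h
    exact hz (hu0 z h)
  have hbs : ∀ z ∈ U, ∀ i j, ContDiffAt ℝ ∞ (fun y => b y i j) z := fun z hz i j =>
    (hw.smooth z hz i j).add contDiffAt_const
  have hbc : ∀ z ∈ V, ∀ i k l, dz i (fun y => b y k l) z = dz k (fun y => b y i l) z := by
    intro z hz i k l
    have e : ∀ i k l, dz i (fun y => b y k l) z = dz i (fun y => w y k l) z := by
      intro i k l
      change dz i (fun y => w y k l + ((L : ℂ) • (1 : Matrix (Fin n) (Fin n) ℂ)) k l) z = _
      rw [C2.dz_add i ((hw.smooth z (hVU hz) k l).differentiableAt (by simp))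
        (differentiableAt_const _), C2.dz_const, add_zero]
    rw [e, e]
    exact hw.closed z (hVU hz) k l i
  have hst := INT.local_stokes hVo (fun z hz => hbs z (hVU hz)) hbc husm hucs huts
  have hi1 : IntegrableOn (fun z => (b z + cHess u z).det.re) V :=
    (((det_cont hbs fun z _ => husm.contDiffAt).mono hU).integrableOn_compact hGc).mono_set hVG
  have hi2 : IntegrableOn (fun z => (b z).det.re) V := by
    have h1 : ContinuousOn (fun z => (b z).det.re) U := by
      intro z hz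
      refine ContinuousAt.continuousWithinAt ?_
      exact Complex.continuous_re.continuousAt.comp
        (INT.contDiffAt_det (k := ∞) fun i j => hbs z hz i j).continuousAt
    exact ((h1.mono hU).integrableOn_compact hGc).mono_set hVG
  have hi3 : IntegrableOn (fun z => (w z + cHess φ z).det.re) V' :=
    (((det_cont (fun z hz => hw.smooth z hz) hφ).mono hU).integrableOn_compact hGc).mono_set
      (hV'V.trans hVG)
  rw [integral_sub hi1 hi2] at hst
  have hcu : ∀ z ∈ V, cHess u z = cHess (fun y => hh0 (f y)) z := fun z hz =>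
    C2.cHess_congr (huV z hz)
  have h2le : ∀ z ∈ U, ContDiffAt ℝ 2 φ z := fun z hz => (hφ z hz).of_le (by norm_cast)
  have hnn : ∀ z ∈ V, 0 ≤ (b z + cHess u z).det.re := by
    intro z hz
    have h1 := dec_psd (h2le z (hVU hz)) a hL0.le s (hw.pos z (hVU hz)) (hpos z (hVU hz))
      (hh1_nonneg _)
    rw [Complex.ofReal_zero, zero_smul, sub_zero] at h1
    rw [hcu z hz]
    exact (Complex.le_def.1 h1.det_nonneg).1
  have hlow : ∀ z ∈ V', Real.exp (-1) ^ n * (w z + cHess φ z).det.re ≤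
      (b z + cHess u z).det.re := by
    intro z hz
    have hzU := hVU (hV'V hz)
    have hf1 : 1 ≤ f z := by
      have h1 : AMP.sq a z < s ^ 2 / 2 := hz
      have h2 := (hbd z hzU).1
      have h3 : L * (s ^ 2 / 2) ≤ L * (s ^ 2 - AMP.sq a z) := by nlinarith
      simp only [hf, ff]
      nlinarith
    have h1 := dec_psd (h2le z hzU) a hL0.le s (hw.pos z hzU) (hpos z hzU) (hh1_low hf1)
    rw [← det_smul_re, hcu z (hV'V hz)]
    exact det_re_le (smul_pd (Real.exp_pos _) (hpos z hzU)) h1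
  have hup : ∀ z ∈ V, (b z).det.re ≤ (1 + L) ^ n * (w z + 1).det.re := by
    intro z hz
    have hzU := hVU hz
    rw [← det_smul_re]
    have hbp : (b z).PosDef := (hw.pos z hzU).add_posSemidef (smul_psd hL0.le Matrix.PosSemidef.one)
    refine det_re_le hbp ?_
    have e : ((1 + L : ℝ) : ℂ) • (w z + 1) - b z = (L : ℂ) • w z + 1 := by
      simp only [hb]
      push_cast
      rw [add_smul, one_smul, smul_add]
      abel
    rw [e]
    exact (smul_psd hL0.le (hw.pos z hzU).posSemidef).add Matrix.PosSemidef.one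
  have hκ : 0 < Real.exp (-1) ^ n := by positivity
  have c1 : Real.exp (-1) ^ n * ∫ z in V', (w z + cHess φ z).det.re ≤
      (1 + L) ^ n * D := by
    calc Real.exp (-1) ^ n * ∫ z in V', (w z + cHess φ z).det.re
        = ∫ z in V', Real.exp (-1) ^ n * (w z + cHess φ z).det.re := (integral_const_mul _ _).symm
      _ ≤ ∫ z in V', (b z + cHess u z).det.re :=
          setIntegral_mono_on (hi3.const_mul _) (hi1.mono_set hV'V) hV'o.measurableSet hlow
      _ ≤ ∫ z in V, (b z + cHess u z).det.re :=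
          setIntegral_mono_set hi1 ((ae_restrict_iff' hVo.measurableSet).2
            (Eventually.of_forall hnn)) hV'V.eventuallyLE
      _ = ∫ z in V, (b z).det.re := by linarith
      _ ≤ ∫ z in V, (1 + L) ^ n * (w z + 1).det.re :=
          setIntegral_mono_on hi2 (hDi.const_mul _) hVo.measurableSet hup
      _ = (1 + L) ^ n * D := integral_const_mul _ _
  have c2 : (1 + L) ^ n ≤ (1 + 6 / s ^ 2) ^ n * A ^ n := by
    rw [← mul_pow]
    refine pow_le_pow_left₀ (by positivity) ?_ n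
    have : L = 6 / s ^ 2 * A := by rw [hL]; ring
    rw [this]; nlinarith
  calc ∫ z in V', (w z + cHess φ z).det.re
      = (Real.exp (-1))⁻¹ ^ n * (Real.exp (-1) ^ n * ∫ z in V', (w z + cHess φ z).det.re) := by
        rw [← mul_assoc, ← mul_pow, inv_mul_cancel₀ (Real.exp_pos _).ne', one_pow, one_mul]
    _ ≤ (Real.exp (-1))⁻¹ ^ n * ((1 + L) ^ n * D) :=
        mul_le_mul_of_nonneg_left c1 (by positivity)
    _ ≤ (Real.exp (-1))⁻¹ ^ n * (((1 + 6 / s ^ 2) ^ n * A ^ n) * D) :=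
        mul_le_mul_of_nonneg_left (mul_le_mul_of_nonneg_right c2 hD0) (by positivity)
    _ = (Real.exp (-1))⁻¹ ^ n * ((1 + 6 / s ^ 2) ^ n * D) * A ^ n := by ring

end Loc

/-- **K4** -/
theorem k4Stmt : K4Stmt := by
  intro n c r R hr hrR w hw
  set U : Set (Cm n) := ball c R with hU
  have hUo : IsOpen U := isOpen_ball
  -- the class of sets on which the estimate holds
  have key : ∃ B : ℝ, 0 ≤ B ∧ ∀ A : ℝ, 1 ≤ A → ∀ φ : Cm n → ℝ,
      (∀ z ∈ U, ContDiffAt ℝ ∞ φ z) → (∀ z ∈ U, -A ≤ φ z ∧ φ z ≤ 0) →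
      (∀ z ∈ U, (w z + cHess φ z).PosDef) →
      ∫⁻ z in closedBall c r, ENNReal.ofReal (w z + cHess φ z).det.re ≤
        ENNReal.ofReal (B * A ^ n) := by
    refine (isCompact_closedBall c r).induction_on (p := fun S => ∃ B : ℝ, 0 ≤ B ∧ ∀ A : ℝ, 1 ≤ A →
      ∀ φ : Cm n → ℝ, (∀ z ∈ U, ContDiffAt ℝ ∞ φ z) → (∀ z ∈ U, -A ≤ φ z ∧ φ z ≤ 0) →
      (∀ z ∈ U, (w z + cHess φ z).PosDef) →
      ∫⁻ z in S, ENNReal.ofReal (w z + cHess φ z).det.re ≤ ENNReal.ofReal (B * A ^ n)) ?_ ?_ ?_ ?_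
    · exact ⟨0, le_rfl, fun A _ φ _ _ _ => by simp⟩
    · rintro S T hST ⟨B, hB, h⟩
      exact ⟨B, hB, fun A hA φ h1 h2 h3 => le_trans (lintegral_mono_set hST) (h A hA φ h1 h2 h3)⟩
    · rintro S T ⟨B, hB, h⟩ ⟨B', hB', h'⟩
      refine ⟨B + B', by positivity, fun A hA φ h1 h2 h3 => ?_⟩
      refine le_trans (lintegral_union_le _ _ _) ?_
      rw [add_mul, ENNReal.ofReal_add (by positivity) (by positivity)]
      exact add_le_add (h A hA φ h1 h2 h3) (h' A hA φ h1 h2 h3)
    · intro a ha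
      have haU : a ∈ U := closedBall_subset_ball hrR ha
      obtain ⟨s, hs, hsU⟩ := Metric.nhds_basis_closedBall.mem_iff.1 (hUo.mem_nhds haU)
      have hsU' : {z : Cm n | AMP.sq a z ≤ s ^ 2} ⊆ U := fun z hz => hsU (sq_sub hs.le hz)
      obtain ⟨B, hB, h⟩ := loc hw hs hsU'
      have hVo : IsOpen {z : Cm n | AMP.sq a z < s ^ 2 / 2} :=
        isOpen_lt (sq_cont a) continuous_const
      have haV : a ∈ {z : Cm n | AMP.sq a z < s ^ 2 / 2} := by
        have h0 : AMP.sq a a = 0 := by simp [AMP.sq]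
        show AMP.sq a a < s ^ 2 / 2
        rw [h0]; positivity
      refine ⟨_, mem_nhdsWithin_of_mem_nhds (hVo.mem_nhds haV), B, hB,
        fun A hA φ h1 h2 h3 => ?_⟩
      have hsub : {z : Cm n | AMP.sq a z < s ^ 2 / 2} ⊆ {z : Cm n | AMP.sq a z ≤ s ^ 2} := by
        intro z hz
        have h4 : AMP.sq a z < s ^ 2 / 2 := hz
        have h5 : 0 < s ^ 2 := by positivity
        show AMP.sq a z ≤ s ^ 2
        linarith
      have hi : IntegrableOn (fun z => (w z + cHess φ z).det.re)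
          {z : Cm n | AMP.sq a z < s ^ 2 / 2} :=
        (((det_cont (fun z hz => hw.smooth z hz) h1).mono hsU').integrableOn_compact
          (sq_compact a hs.le le_rfl)).mono_set hsub
      rw [← ofReal_integral_eq_lintegral_ofReal hi
        ((ae_restrict_iff' hVo.measurableSet).2 (Eventually.of_forall fun z hz =>
          (Complex.lt_def.1 (h3 z (hsU' (hsub hz))).det_pos).1.le))]
      exact ENNReal.ofReal_le_ofReal (h A hA φ h1 h2 h3)
  obtain ⟨B, hB, h⟩ := key
  refine ⟨B + 1, by linarith, fun A hA φ h1 h2 h3 => ?_⟩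
  have hbU : ball c r ⊆ U := ball_subset_ball hrR.le
  have hi : IntegrableOn (fun z => (w z + cHess φ z).det.re) (ball c r) :=
    (((det_cont (fun z hz => hw.smooth z hz) h1).mono
      (closedBall_subset_ball hrR)).integrableOn_compact (isCompact_closedBall c r)).mono_set
      ball_subset_closedBall
  have hnn : 0 ≤ᵐ[volume.restrict (ball c r)] fun z => (w z + cHess φ z).det.re :=
    (ae_restrict_iff' measurableSet_ball).2 (Eventually.of_forall fun z hz =>
      (Complex.lt_def.1 (h3 z (hbU hz)).det_pos).1.le)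
  have h4 : ENNReal.ofReal (∫ z in ball c r, (w z + cHess φ z).det.re) ≤
      ENNReal.ofReal (B * A ^ n) := by
    rw [ofReal_integral_eq_lintegral_ofReal hi hnn]
    exact le_trans (lintegral_mono_set ball_subset_closedBall) (h A hA φ h1 h2 h3)
  have hA0 : (0 : ℝ) ≤ A ^ n := by positivity
  have h5 := (ENNReal.ofReal_le_ofReal_iff (by positivity)).1 h4
  linarith

end Vale.Agent.P284.H977.K
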